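import Vale.Agent.P193.W4.Code.Basic
import Vale.Agent.P193.W4.Coset.Emit

/-!
P193, module W4: the code of a point is its path, and a word is genuine unless it begins no path.
-/

namespace Vale.Agent.P193.W4

open Vale.Agent.P193.Action

variable {K : Type} [Group K] {k : ℕ} {g : Fin k → K} (E : EffAction K g)

lemma code_eq_path {y : ℕ → Bool} (hy : y ∈ E.Y) : code E y = Coset.path E y := by
  funext i s
  cases s with
  | none => exact code_none E hy i
  | some s => rfl

lemma noExt_iff (w : List (Full k)) : Coset.NoExt E w ↔ ¬ Genuine E w := by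
  constructor
  · rintro h ⟨y, hy, hw⟩
    exact h y hy fun i hi => by rw [← code_eq_path E hy]; exact (hw i hi).symm
  · intro h y hy hp
    exact h ⟨y, hy, fun i hi => by rw [code_eq_path E hy]; exact (hp i hi).symm⟩

/-- The emissions of `Coset.exists_emit` are exactly the words that are not genuine. -/
lemma exists_emit_genuine [Primcodable (Full k)] (hk : 0 < k) :
    ∃ e : ℕ → List (Full k), Computable e ∧ (∀ w, (∃ n, e n = w) ↔ ¬ Genuine E w) ∧
      ∀ n, e n ≠ [] := by
  obtain ⟨e, he, h⟩ := Coset.exists_emit E hk
  exact ⟨e, he, fun w => (h w).trans (noExt_iff E w), fun n => ((h _).1 ⟨n, rfl⟩).ne_nil E⟩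

end Vale.Agent.P193.W4
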