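import Vale.Agent.P193.W4.Code.Defs

/-!
P193, module W4: the facts about codes that the coset layer and its rigidity use.
-/

namespace Vale.Agent.P193.W4

open Vale.Agent.P193.Action

variable {K : Type} [Group K] {k : ℕ} {g : Fin k → K}

variable (E : EffAction K g)

lemma code_none {y : ℕ → Bool} (hy : y ∈ E.Y) (i : ℕ) : code E y i none = y i := by
  show E.act (1 : K)⁻¹ y i = y i
  rw [inv_one, E.one y hy]

/-- Every bit of a code is one bit of its own track. -/
lemma code_bit (i : ℕ) (s : Option (Fin k)) : ∃ j, ∀ y, code E y i s = y j :=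
  E.cont _ _

/-- The track `s` of the coset `u` is the own track of the coset `u * gs g s`. -/
lemma code_act {y : ℕ → Bool} (hy : y ∈ E.Y) (u : K) (i : ℕ) (s : Option (Fin k)) :
    code E (E.act u⁻¹ y) i s = code E (E.act (u * gs g s)⁻¹ y) i none := by
  rw [code_none E (E.mem _ y hy), mul_inv_rev, E.mul _ _ y hy]
  rfl

/-- A finite set of bits of a code depends on finitely many bits of the own track. -/
lemma code_dep (n : ℕ) :
    ∃ N, ∀ y y' : ℕ → Bool, (∀ j < N, y j = y' j) → ∀ i < n, code E y i = code E y' i := by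
  choose p hp using code_bit E
  refine ⟨(Finset.range n ×ˢ (Finset.univ : Finset (Option (Fin k)))).sup (fun q => p q.1 q.2) + 1,
    fun y y' h i hi => funext fun s => ?_⟩
  rw [hp, hp]
  exact h _ (Nat.lt_succ_of_le (Finset.le_sup (f := fun q : ℕ × Option (Fin k) => p q.1 q.2)
    (b := (i, s)) (by simp [hi])))

/-- One track of a code determines all of it, a finite part from a finite part. -/
lemma track_determines (n : ℕ) : ∃ N, ∀ y ∈ E.Y, ∀ y' ∈ E.Y, ∀ s,
    (∀ j < N, code E y j s = code E y' j s) → ∀ i < n, code E y i = code E y' i := by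
  have h : ∀ q : ℕ × Option (Fin k) × Option (Fin k), ∃ j, ∀ y ∈ E.Y,
      code E y q.1 q.2.2 = code E y j q.2.1 := by
    intro q
    obtain ⟨j, hj⟩ := E.cont ((gs g q.2.2)⁻¹ * gs g q.2.1) q.1
    refine ⟨j, fun y hy => ?_⟩
    show E.act _ y q.1 = E.act (gs g q.2.1)⁻¹ y j
    rw [← hj (E.act (gs g q.2.1)⁻¹ y), ← E.mul _ _ y hy]
    simp [mul_assoc]
  choose p hp using h
  refine ⟨(Finset.range n ×ˢ (Finset.univ : Finset (Option (Fin k) × Option (Fin k)))).sup p + 1,
    fun y hy y' hy' s hs i hi => funext fun t => ?_⟩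
  rw [hp (i, s, t) y hy, hp (i, s, t) y' hy']
  exact hs _ (Nat.lt_succ_of_le (Finset.le_sup (f := p) (b := (i, s, t)) (by simp [hi])))

/-! ### Genuine words -/

lemma genuine_nil : Genuine E [] := by
  obtain ⟨y, hy⟩ := E.nonempty
  exact ⟨y, hy, fun i h => absurd h (by simp)⟩

lemma Genuine.of_append {w v : List (Full k)} (h : Genuine E (w ++ v)) : Genuine E w := by
  obtain ⟨y, hy, h⟩ := h
  refine ⟨y, hy, fun i hi => ?_⟩
  rw [h i (by simp; omega), List.getElem_append_left hi]

lemma Genuine.extend {w : List (Full k)} (h : Genuine E w) : ∃ d, Genuine E (w ++ [d]) := by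
  obtain ⟨y, hy, h⟩ := h
  refine ⟨code E y w.length, y, hy, fun i hi => ?_⟩
  by_cases hw : i < w.length
  · rw [List.getElem_append_left hw, h i hw]
  · have : i = w.length := by simp at hi; omega
    subst this
    simp

/-- A sequence all of whose prefixes are genuine is a code. -/
lemma exists_code {c : ℕ → Full k}
    (h : ∀ n, Genuine E (List.ofFn fun i : Fin n => c i)) : ∃ y ∈ E.Y, code E y = c := by
  choose y hy hyc using h
  have key : ∀ n, ∀ i < n, code E (y n) i = c i := fun n i hi => by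
    rw [hyc n i (by simpa using hi), List.getElem_ofFn]
  set z : ℕ → Bool := fun i => c i none
  have hyz : ∀ n, ∀ i < n, y n i = z i := fun n i hi => by
    rw [← code_none E (hy n), key n i hi]
  have hlim : Filter.Tendsto y Filter.atTop (nhds z) := by
    refine tendsto_pi_nhds.2 fun i => ?_
    refine tendsto_nhds_of_eventually_eq ?_
    exact Filter.eventually_atTop.2 ⟨i + 1, fun n hn => hyz n i (by omega)⟩
  refine ⟨z, E.closed.mem_of_tendsto hlim (Filter.Eventually.of_forall hy), funext fun i => ?_⟩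
  obtain ⟨N, hN⟩ := code_dep E (i + 1)
  rw [← key (max N (i + 1)) i (by omega)]
  exact hN z _ (fun j hj => (hyz _ j (by omega)).symm) i (by omega)

/-- Every word has an extension that is not genuine, by letters equal on all tracks. -/
lemma exists_bad_extension (w : List (Full k)) :
    ∃ v : List (Full k), v ≠ [] ∧ (∀ d ∈ v, ∀ s t, d s = d t) ∧ ¬ Genuine E (w ++ v) := by
  let w' : List (Full k) := w ++ [fun _ => false]
  have hw : 0 < w'.length := by simp [w']
  obtain ⟨i, hi, hrep⟩ := E.sweep 0 w'.length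
  let b : Bool := !(w'[0] none)
  refine ⟨(fun _ => false) :: List.replicate (i + 1 - w'.length) (fun _ => b), by simp, ?_, ?_⟩
  · intro d hd s t
    rcases List.mem_cons.1 hd with rfl | hd
    · rfl
    · rw [List.eq_of_mem_replicate hd]
  · rintro ⟨y, hy, h⟩
    have e : w ++ ((fun _ => false) :: List.replicate (i + 1 - w'.length) (fun _ => b)) =
        w' ++ List.replicate (i + 1 - w'.length) (fun _ => b) := by simp [w']
    simp only [e] at h
    have h0 := h 0 (by simp; omega)
    have h1 := h i (by simp; omega)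
    rw [List.getElem_append_left hw] at h0
    rw [List.getElem_append_right hi, List.getElem_replicate] at h1
    have h0' : y 0 = w'[0] none := by rw [← code_none E hy 0, h0]
    have h1' : y i = b := by rw [← code_none E hy i, h1]
    rw [hrep y hy, h0'] at h1'
    exact Bool.not_ne_self _ h1'.symm

/-- Every genuine word begins the code of some coset of every point. -/
lemma exists_coset {w : List (Full k)} (h : Genuine E w) {y : ℕ → Bool} (hy : y ∈ E.Y) :
    ∃ u : K, ∀ (i : ℕ) (hi : i < w.length), code E (E.act u⁻¹ y) i = w[i] := by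
  obtain ⟨z, hz, hw⟩ := h
  obtain ⟨N, hN⟩ := code_dep E w.length
  obtain ⟨h, hh⟩ := E.minimal y hy z hz N
  refine ⟨h⁻¹, fun i hi => ?_⟩
  rw [inv_inv, hN _ z hh i hi, hw i hi]

/-! ### Different cosets -/

/-- The own tracks of two cosets differ in a bounded range above every level. -/
lemma differ_bound {u v : K} (huv : u ≠ v) (N : ℕ) :
    ∃ J, ∀ y ∈ E.Y, ∃ i, N ≤ i ∧ i < J ∧ E.act u⁻¹ y i ≠ E.act v⁻¹ y i := by
  have hne : ∀ y ∈ E.Y, ∃ i, N ≤ i ∧ E.act u⁻¹ y i ≠ E.act v⁻¹ y i := by
    intro y hy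
    obtain ⟨j, hj⟩ : ∃ j, E.act u⁻¹ y j ≠ E.act v⁻¹ y j := by
      by_contra! hc
      refine E.free y hy (v * u⁻¹) (fun e => huv (mul_inv_eq_one.1 e).symm) ?_
      rw [E.mul _ _ y hy, show E.act u⁻¹ y = E.act v⁻¹ y from funext hc, ← E.mul _ _ y hy,
        mul_inv_cancel, E.one y hy]
    obtain ⟨i, hi, h⟩ := E.sweep j N
    exact ⟨i, hi, by rwa [h _ (E.mem _ y hy), h _ (E.mem _ y hy)]⟩
  let W : ℕ → Set (ℕ → Bool) := fun J =>
    {y | ∃ i, N ≤ i ∧ i < J ∧ E.act u⁻¹ y i ≠ E.act v⁻¹ y i}
  have hopen : ∀ J, IsOpen (W J) := by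
    intro J
    have : W J = ⋃ i ∈ Set.Ico N J, {y | E.act u⁻¹ y i ≠ E.act v⁻¹ y i} := by
      ext y; simp [W, and_assoc]
    rw [this]
    refine isOpen_biUnion fun i _ => ?_
    obtain ⟨p, hp⟩ := E.cont u⁻¹ i
    obtain ⟨q, hq⟩ := E.cont v⁻¹ i
    simp only [hp, hq]
    exact (isOpen_discrete {b : Bool × Bool | b.1 ≠ b.2}).preimage
      (f := fun y : ℕ → Bool => (y p, y q)) (by fun_prop)
  obtain ⟨T, hT⟩ := E.closed.isCompact.elim_finite_subcover W hopen fun y hy => by
    obtain ⟨i, h1, h2⟩ := hne y hy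
    exact Set.mem_iUnion.2 ⟨i + 1, i, h1, Nat.lt_succ_self i, h2⟩
  refine ⟨T.sup id, fun y hy => ?_⟩
  obtain ⟨J, hJ, i, h1, h2, h3⟩ := Set.mem_iUnion₂.1 (hT hy)
  exact ⟨i, h1, h2.trans_le (Finset.le_sup (f := id) hJ), h3⟩

/-- Two tracks of one code differ in a bounded range above every level. -/
lemma tracks_differ (hg : Function.Injective (gs g)) (N : ℕ) :
    ∃ J, ∀ y ∈ E.Y, ∀ s t, s ≠ t → ∃ i, N ≤ i ∧ i < J ∧ code E y i s ≠ code E y i t := by
  have h : ∀ q : Option (Fin k) × Option (Fin k), ∃ J, ∀ y ∈ E.Y, q.1 ≠ q.2 →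
      ∃ i, N ≤ i ∧ i < J ∧ code E y i q.1 ≠ code E y i q.2 := by
    intro q
    by_cases hq : q.1 = q.2
    · exact ⟨0, fun y _ h => absurd hq h⟩
    obtain ⟨J, hJ⟩ := differ_bound E (hg.ne hq) N
    exact ⟨J, fun y hy _ => hJ y hy⟩
  choose J hJ using h
  refine ⟨Finset.univ.sup J, fun y hy s t hst => ?_⟩
  obtain ⟨i, h1, h2, h3⟩ := hJ (s, t) y hy hst
  exact ⟨i, h1, h2.trans_le (Finset.le_sup (Finset.mem_univ _)), h3⟩

/-- A word whose tracks `s` and `t` agree far enough is not genuine. -/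
lemma not_genuine_of_tracks_eq (hg : Function.Injective (gs g)) (N : ℕ) :
    ∃ J, ∀ w : List (Full k), J ≤ w.length → ∀ s t, s ≠ t →
      (∀ (i : ℕ) (h : i < w.length), N ≤ i → w[i] s = w[i] t) → ¬ Genuine E w := by
  obtain ⟨J, hJ⟩ := tracks_differ E hg N
  refine ⟨J, fun w hw s t hst h => ?_⟩
  rintro ⟨y, hy, hyw⟩
  obtain ⟨i, h1, h2, h3⟩ := hJ y hy s t hst
  rw [hyw i (by omega)] at h3
  exact h3 (h i (by omega) h1)

/-- A block, arbitrarily high, whose letters in one coset are arbitrary. -/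
lemma exists_block (hg : Function.Injective (gs g)) {y₀ : ℕ → Bool} (hy₀ : y₀ ∈ E.Y)
    (N r : ℕ) (u : K) :
    ∃ i, N ≤ i ∧ ∀ d : Fin r → Full k, ∃ y ∈ E.Y, (∀ j < N, y j = y₀ j) ∧
      ∀ t : Fin r, code E (E.act u⁻¹ y) (i + t) = d t := by
  classical
  obtain ⟨i, hi, h⟩ := E.indep (Finset.univ.image fun s => u * gs g s) y₀ hy₀ N r
  refine ⟨i, hi, fun d => ?_⟩
  obtain ⟨y, hy, h1, h2⟩ := h fun z t => Function.extend (fun s => u * gs g s) (fun s => d t s)
    (fun _ => false) z
  refine ⟨y, hy, h1, fun t => funext fun s => ?_⟩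
  rw [code_act E hy, code_none E (E.mem _ y hy),
    h2 _ (Finset.mem_image_of_mem _ (Finset.mem_univ s)) t]
  exact Function.Injective.extend_apply (f := fun s => u * gs g s)
    ((mul_right_injective u).comp hg) _ _ s

/-- The codes are the sequences of letters whose tracks match no forbidden item. -/
lemma exists_code_iff (c : ℕ → Full k) :
    (∃ y ∈ E.Y, code E y = c) ↔
      ∀ n it, E.bad n = some it → ¬ Matches it (fun i => c i none) fun s i => c i (some s) := by
  rw [← E.genuine]
  constructor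
  · rintro ⟨y, hy, rfl⟩
    have e : (fun i => code E y i none) = y := funext (code_none E hy)
    rw [e]
    exact ⟨hy, fun s => rfl⟩
  · rintro ⟨hy, hB⟩
    refine ⟨_, hy, funext fun i => funext fun s => ?_⟩
    rcases s with _ | s
    · exact code_none E hy i
    · exact (congrFun (hB s) i).symm

end Vale.Agent.P193.W4
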