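import Vale.Agent.P193.Action.Spec
import Vale.Agent.P193.W4.Readout

/-!
P193, module W4 (`notes/P193_W4_frozen.md`): the code of a coset. The code of the coset `u`
of `y` is `codeAt E y u`; its track `s` is the own track of the coset `u * gs g s`.
-/

namespace Vale.Agent.P193.W4

open Vale.Agent.P193.Action

variable {K : Type} [Group K] {k : ℕ} {g : Fin k → K}

/-- The element of a track. -/
def gs (g : Fin k → K) : Option (Fin k) → K
  | none => 1
  | some s => g s

/-- The letters of the coset whose own track is `y`. -/
def code (E : EffAction K g) (y : ℕ → Bool) (i : ℕ) : Full k :=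
  fun s => E.act (gs g s)⁻¹ y i

/-- The word is a prefix of the code of some point. -/
def Genuine (E : EffAction K g) (w : List (Full k)) : Prop :=
  ∃ y ∈ E.Y, ∀ (i : ℕ) (h : i < w.length), code E y i = w[i]

lemma gs_injective (hg : Function.Injective g) (h1 : ∀ s, g s ≠ 1) :
    Function.Injective (gs g) := by
  rintro (_ | s) (_ | t) h
  · rfl
  · exact absurd h.symm (h1 t)
  · exact absurd h (h1 s)
  · exact congrArg some (hg h)

/-- The code of the coset `u` of the point `y`. -/
abbrev codeAt (E : EffAction K g) (y : ℕ → Bool) (u : K) : ℕ → Full k := code E (E.act u⁻¹ y)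

end Vale.Agent.P193.W4
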